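import Vale.Agent.P099.Avg

open MeasureTheory

namespace Vale.Agent.Results.P099.WeakMixing

open Vale.Agent.P099

theorem result (A : Fin 3 → ℂ) (hA : AffineIndependent ℝ A)
    (hI : ∃ i : Fin 3,
      Irrational (EuclideanGeometry.angle (A (i + 1)) (A i) (A (i + 2)) / Real.pi)) :
    IsProbabilityMeasure (liouville A) ∧
    (∀ᵐ v ∂liouville A, ∃ γ, IsOrbit A γ ∧ γ 0 = v) ∧
    (∀ γ, IsOrbit A γ → ∀ t, flow A t (γ 0) = γ t) ∧
    (∀ t, MeasurePreserving (flow A t) (liouville A) (liouville A)) ∧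
    IsErgodicFlow (flow A) (liouville A) ∧
    IsErgodicFlow (fun t => Prod.map (flow A t) (flow A t))
      ((liouville A).prod (liouville A)) := by
  have h := ar_ne hA
  refine ⟨prob_liouville h, ae_good h, fun γ hγ t => ?_, mp_flow h, ergodic h hI, weak_mixing h hI⟩
  have h1 := flow_orbit (A := A) (v := γ 0) ⟨γ, hγ, rfl⟩
  exact congrFun (orbit_unique h h1.1 hγ h1.2) t

end Vale.Agent.Results.P099.WeakMixing
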